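import Vale.Agent.P235.H134.Grid.Defs

/-!
P235 (helper502 for helper558).  Two pure graph lemmas of the star theorem: disjoint connected sets
extend to a partition into connected sets, and a large connected graph has a vertex of large degree
or a long path.
-/

set_option autoImplicit false

namespace Vale.Agent.P235.H502

open SimpleGraph

/-- (PART) disjoint connected sets extend to a partition into connected sets -/
theorem exists_part {V ι : Type} [Finite V] {G : SimpleGraph V} (hG : G.Connected) (A : ι → Set V)
    [Nonempty ι] (hA : ∀ i, (G.induce (A i)).Connected)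
    (hd : ∀ i j, i ≠ j → Disjoint (A i) (A j)) :
    ∃ p : V → ι, (∀ i, ∀ v ∈ A i, p v = i) ∧ ∀ i, (G.induce (p ⁻¹' {i})).Connected := by
  classical
  -- partial assignments
  let Good : (V → Option ι) → Prop := fun p =>
    (∀ i, ∀ v ∈ A i, p v = some i) ∧ ∀ i, (G.induce (p ⁻¹' {some i})).Connected
  have hstart : ∃ p, Good p := by
    refine ⟨fun v => if h : ∃ i, v ∈ A i then some h.choose else none, ?_, ?_⟩
    · intro i v hv
      have h : ∃ i, v ∈ A i := ⟨i, hv⟩
      have : h.choose = i := by
        by_contra hne
        exact Set.disjoint_left.1 (hd _ _ hne) h.choose_spec hv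
      simp only [dif_pos h, this]
    · intro i
      have : ((fun v => if h : ∃ i, v ∈ A i then some h.choose else none : V → Option ι) ⁻¹'
          {some i}) = A i := by
        ext v
        simp only [Set.mem_preimage, Set.mem_singleton_iff]
        constructor
        · intro hv
          by_cases h : ∃ i, v ∈ A i
          · rw [dif_pos h] at hv
            rw [← Option.some.inj hv]
            exact h.choose_spec
          · rw [dif_neg h] at hv
            exact absurd hv (by simp)
        · intro hv
          have h : ∃ i, v ∈ A i := ⟨i, hv⟩
          have : h.choose = i := by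
            by_contra hne
            exact Set.disjoint_left.1 (hd _ _ hne) h.choose_spec hv
          simp only [dif_pos h, this]
      rw [this]
      exact hA i
  -- a good assignment with the smallest number of unassigned vertices
  obtain ⟨p, hp, hmin⟩ : ∃ p, Good p ∧ ∀ q, Good q → {v | p v = none}.ncard ≤ {v | q v = none}.ncard := by
    have hex : ∃ n : ℕ, ∃ p, Good p ∧ {v | p v = none}.ncard = n :=
      ⟨_, hstart.choose, hstart.choose_spec, rfl⟩
    obtain ⟨p, hp, hn⟩ := Nat.find_spec hex
    exact ⟨p, hp, fun q hq => hn ▸ Nat.find_min' hex ⟨q, hq, rfl⟩⟩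
  have hall : ∀ v, p v ≠ none := by
    by_contra hcon
    push Not at hcon
    obtain ⟨v, hv⟩ := hcon
    obtain ⟨i₀⟩ := (inferInstance : Nonempty ι)
    obtain ⟨⟨u, hu⟩⟩ := (hp.2 i₀).nonempty
    have hu' : p u = some i₀ := hu
    -- an edge from the assigned part to the unassigned part
    obtain ⟨x, y, hxy, hx, hy⟩ : ∃ x y, G.Adj x y ∧ p x ≠ none ∧ p y = none := by
      obtain ⟨w⟩ := hG.preconnected u v
      have : ∀ {a b : V} (w : G.Walk a b), p a ≠ none → p b = none →
          ∃ x y, G.Adj x y ∧ p x ≠ none ∧ p y = none := by
        intro a b w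
        induction w with
        | nil => intro h1 h2; exact absurd h2 h1
        | @cons a c b h w ih =>
          intro h1 h2
          by_cases hc : p c = none
          · exact ⟨a, c, h, h1, hc⟩
          · exact ih hc h2
      exact this w (by rw [hu']; simp) hv
    obtain ⟨i, hi⟩ := Option.ne_none_iff_exists'.1 hx
    let q : V → Option ι := Function.update p y (some i)
    have hqy : q y = some i := Function.update_self _ _ _
    have hq : ∀ z, z ≠ y → q z = p z := fun z hz => Function.update_of_ne hz _ _
    have hgood : Good q := by
      refine ⟨fun j v hv => ?_, fun j => ?_⟩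
      · have h1 := hp.1 j v hv
        have : v ≠ y := by
          rintro rfl
          rw [hy] at h1
          exact absurd h1 (by simp)
        rw [hq v this, h1]
      · by_cases hj : j = i
        · subst hj
          have : q ⁻¹' {some j} = p ⁻¹' {some j} ∪ {y} := by
            ext z
            by_cases hz : z = y
            · subst hz; simp [hqy]
            · simp [hq z hz, hz]
          rw [this]
          refine connected_induce_union (G := G) (hp.2 j).preconnected (fun a b => ?_) hi rfl hxy
          have h : a = b := Subtype.ext (a.2.trans b.2.symm)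
          rw [h]
        · have : q ⁻¹' {some j} = p ⁻¹' {some j} := by
            ext z
            by_cases hz : z = y
            · subst hz
              simp only [Set.mem_preimage, Set.mem_singleton_iff, hqy, hy]
              constructor
              · intro h; exact absurd (Option.some.inj h).symm hj
              · intro h; exact absurd h (by simp)
            · simp [hq z hz]
          rw [this]
          exact hp.2 j
    have hlt : {v | q v = none}.ncard < {v | p v = none}.ncard := by
      refine Set.ncard_lt_ncard ⟨?_, ?_⟩ (Set.toFinite _)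
      · intro z hz
        have hz' : q z = none := hz
        have hne : z ≠ y := by
          rintro rfl
          rw [hqy] at hz'
          exact absurd hz' (by simp)
        show p z = none
        rw [← hq z hne]
        exact hz'
      · intro hsub
        have : q y = none := hsub hy
        rw [hqy] at this
        exact absurd this (by simp)
    exact absurd (hmin q hgood) (not_le.2 hlt)
  have hall' : ∀ v, ∃ i, p v = some i := fun v => Option.ne_none_iff_exists'.1 (hall v)
  choose f hf using hall'
  refine ⟨f, fun i v hv => ?_, fun i => ?_⟩
  · have h1 := hp.1 i v hv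
    rw [hf v] at h1
    exact Option.some.inj h1
  · have : f ⁻¹' {i} = p ⁻¹' {some i} := by
      ext v
      simp only [Set.mem_preimage, Set.mem_singleton_iff, hf v]
      exact ⟨fun h => by rw [h], fun h => Option.some.inj h⟩
    rw [this]
    exact hp.2 i

/-- the quotient graph of a map -/
def quot {V ι : Type} (G : SimpleGraph V) (p : V → ι) : SimpleGraph ι where
  Adj i j := i ≠ j ∧ ∃ u v, G.Adj u v ∧ p u = i ∧ p v = j
  symm := ⟨fun _ _ ⟨h, u, v, huv, hu, hv⟩ => ⟨h.symm, v, u, huv.symm, hv, hu⟩⟩
  loopless := ⟨fun _ h => h.1 rfl⟩

theorem quot_connected {V ι : Type} {G : SimpleGraph V} (hG : G.Connected) {p : V → ι}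
    (hp : Function.Surjective p) : (quot G p).Connected := by
  have hne := hG.nonempty
  have key : ∀ {a b : V} (w : G.Walk a b), (quot G p).Reachable (p a) (p b) := by
    intro a b w
    induction w with
    | nil => exact Reachable.refl _
    | @cons a c b h w ih =>
      by_cases hac : p a = p c
      · rw [hac]; exact ih
      · have h1 : (quot G p).Adj (p a) (p c) := ⟨hac, a, c, h, rfl, rfl⟩
        exact h1.reachable.trans ih
  have : Nonempty ι := ⟨p hne.some⟩
  refine ⟨fun i j => ?_⟩
  obtain ⟨a, rfl⟩ := hp i
  obtain ⟨b, rfl⟩ := hp j
  obtain ⟨w⟩ := hG.preconnected a b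
  exact key w

/-- (STAR OR PATH) -/
theorem star_or_path {ι : Type} [Finite ι] (Q : SimpleGraph ι) (hQ : Q.Connected) (k : ℕ)
    (hc : (k + 1) ^ (2 * k + 1) < Nat.card ι) :
    (∃ (i : ι) (f : Fin k → ι), Function.Injective f ∧ ∀ j, Q.Adj i (f j)) ∨
      ∃ f : Fin (2 * k + 1) → ι, Function.Injective f ∧
        ∀ j : Fin (2 * k), Q.Adj (f j.castSucc) (f j.succ) := by
  classical
  have := Fintype.ofFinite ι
  by_cases hdeg : ∃ i, k ≤ (Q.neighborFinset i).card
  · left
    obtain ⟨i, hi⟩ := hdeg
    obtain ⟨s, hs, hcard⟩ := Finset.exists_subset_card_eq hi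
    let e : Fin k ≃ s := (Finset.equivFinOfCardEq hcard).symm
    refine ⟨i, fun j => (e j).1, fun a b hab => e.injective (Subtype.ext hab), fun j => ?_⟩
    exact (Q.mem_neighborFinset i _).1 (hs (e j).2)
  · right
    push Not at hdeg
    obtain ⟨o⟩ := hQ.nonempty
    let B : ℕ → Finset ι := fun d => Nat.rec {o} (fun _ S => S ∪ S.biUnion fun i => Q.neighborFinset i) d
    have hB0 : B 0 = {o} := rfl
    have hBs : ∀ d, B (d + 1) = B d ∪ (B d).biUnion fun i => Q.neighborFinset i := fun d => rfl
    have hBcard : ∀ d, (B d).card ≤ (k + 1) ^ d := by
      intro d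
      induction d with
      | zero => simp [hB0]
      | succ d ih =>
        rw [hBs]
        have h1 : ((B d).biUnion fun i => Q.neighborFinset i).card ≤ (B d).card * k :=
          Finset.card_biUnion_le_card_mul _ _ _ fun i _ => (hdeg i).le
        calc (B d ∪ (B d).biUnion fun i => Q.neighborFinset i).card
            ≤ (B d).card + ((B d).biUnion fun i => Q.neighborFinset i).card :=
              Finset.card_union_le _ _
          _ ≤ (B d).card + (B d).card * k := by omega
          _ = (B d).card * (k + 1) := by ring
          _ ≤ (k + 1) ^ d * (k + 1) := Nat.mul_le_mul_right _ ih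
          _ = (k + 1) ^ (d + 1) := by rw [pow_succ]
    have hBwalk : ∀ {a b : ι} (w : Q.Walk a b), ∀ d, a ∈ B d → b ∈ B (d + w.length) := by
      intro a b w
      induction w with
      | nil => intro d h; simpa using h
      | @cons a c b h w ih =>
        intro d ha
        have h1 : c ∈ B (d + 1) := by
          rw [hBs]
          exact Finset.mem_union_right _ (Finset.mem_biUnion.2 ⟨a, ha, (Q.mem_neighborFinset a c).2 h⟩)
        have h2 := ih (d + 1) h1
        rw [Walk.length_cons]
        have h3 : d + (w.length + 1) = d + 1 + w.length := by ring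
        rw [h3]
        exact h2
    have hBmono : ∀ d e, d ≤ e → B d ⊆ B e := by
      intro d e hde
      induction hde with
      | refl => exact subset_rfl
      | step _ ih => exact ih.trans (by rw [hBs]; exact Finset.subset_union_left)
    obtain ⟨j, hj⟩ : ∃ j, j ∉ B (2 * k + 1) := by
      by_contra hcon
      push Not at hcon
      have h1 : B (2 * k + 1) = Finset.univ := Finset.eq_univ_iff_forall.2 hcon
      have h2 := hBcard (2 * k + 1)
      rw [h1, Finset.card_univ, ← Nat.card_eq_fintype_card] at h2
      omega
    obtain ⟨w, hw⟩ := (hQ.preconnected o j).exists_walk_length_eq_dist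
    have hwp : w.IsPath := Walk.isPath_of_length_eq_dist w hw
    have hlen : 2 * k + 1 < w.length := by
      by_contra hcon
      push Not at hcon
      have h1 := hBwalk w 0 (by rw [hB0]; simp)
      rw [zero_add] at h1
      exact hj (hBmono _ _ hcon h1)
    refine ⟨fun t => w.getVert t, fun s t hst => ?_, fun t => ?_⟩
    · have h1 := hwp.getVert_injOn (show (s : ℕ) ∈ {i | i ≤ w.length} by
        have := s.2; simp only [Set.mem_ofPred_eq]; omega) (show (t : ℕ) ∈ {i | i ≤ w.length} by
        have := t.2; simp only [Set.mem_ofPred_eq]; omega) hst
      exact Fin.ext h1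
    · exact w.adj_getVert_succ (by have := t.2; simp only [Fin.val_castSucc]; omega)

end Vale.Agent.P235.H502
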