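import Vale.Agent.P235.H502.Part

/-!
P235 (helper502 for helper558).  The combinatorial half of the star theorem: from many disjoint bad
sets to a star of bad sets, when every bad set contains a connecting set which leaves a bad piece.
-/

set_option autoImplicit false

namespace Vale.Agent.P235.H502

open SimpleGraph

/-- a star: `k` disjoint bad sets around the connected set `Z` -/
def StarB {V : Type} (G : SimpleGraph V) (Bad : Set V → Prop) (k : ℕ) (Z : Set V)
    (D : Fin k → Set V) : Prop :=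
  (G.induce Z).Connected ∧ (∀ i, Bad (D i)) ∧ (∀ i j, i ≠ j → Disjoint (D i) (D j)) ∧
    (∀ i, Disjoint Z (D i)) ∧ ∀ i, ∃ z ∈ Z, ∃ x ∈ D i, G.Adj z x

/-- inside `X`, a connected set through `a` and `b` leaves a bad set next to it -/
def Link {V : Type} (G : SimpleGraph V) (Bad : Set V → Prop) (X : Set V) (a b : V) : Prop :=
  ∃ P Y : Set V, P ⊆ X ∧ Y ⊆ X ∧ Disjoint P Y ∧ a ∈ P ∧ b ∈ P ∧ (G.induce P).Connected ∧
    Bad Y ∧ ∃ z ∈ P, ∃ x ∈ Y, G.Adj z x

theorem chain_star {V ι : Type} {G : SimpleGraph V} {p : V → ι} {Bad : Set V → Prop}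
    (hp : ∀ i, (G.induce (p ⁻¹' {i})).Connected) (k : ℕ) (f : ℕ → ι)
    (hinj : ∀ a ≤ 2 * k, ∀ b ≤ 2 * k, f a = f b → a = b)
    (hadj : ∀ j < 2 * k, (quot G p).Adj (f j) (f (j + 1)))
    (hgeo : ∀ i a b, p a = i → p b = i → Link G Bad (p ⁻¹' {i}) a b) :
    ∃ (Z : Set V) (D : Fin k → Set V), StarB G Bad k Z D := by
  classical
  -- the connecting edges
  have h1 : ∀ j, ∃ u v, j < 2 * k → G.Adj u v ∧ p u = f j ∧ p v = f (j + 1) := by
    intro j
    by_cases hj : j < 2 * k
    · obtain ⟨-, u, v, huv, hu, hv⟩ := hadj j hj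
      exact ⟨u, v, fun _ => ⟨huv, hu, hv⟩⟩
    · obtain ⟨⟨u, -⟩⟩ := (hp (f 0)).nonempty
      exact ⟨u, u, fun h => absurd h hj⟩
  choose eu ev he using h1
  -- the links in the odd fibres
  have h2 : ∀ t, ∃ P Y : Set V, t < k → P ⊆ p ⁻¹' {f (2 * t + 1)} ∧ Y ⊆ p ⁻¹' {f (2 * t + 1)} ∧
      Disjoint P Y ∧ ev (2 * t) ∈ P ∧ eu (2 * t + 1) ∈ P ∧ (G.induce P).Connected ∧ Bad Y ∧
      ∃ z ∈ P, ∃ x ∈ Y, G.Adj z x := by
    intro t
    by_cases ht : t < k
    · obtain ⟨P, Y, h⟩ := hgeo (f (2 * t + 1)) (ev (2 * t)) (eu (2 * t + 1))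
        (he (2 * t) (by omega)).2.2 (he (2 * t + 1) (by omega)).2.1
      exact ⟨P, Y, fun _ => h⟩
    · exact ⟨∅, ∅, fun h => absurd h ht⟩
  choose P Y hPY using h2
  -- the connected set
  let S : ℕ → Set V := fun n => Nat.rec (p ⁻¹' {f 0})
    (fun t S => (S ∪ P t) ∪ p ⁻¹' {f (2 * t + 2)}) n
  have hS0 : S 0 = p ⁻¹' {f 0} := rfl
  have hSs : ∀ t, S (t + 1) = (S t ∪ P t) ∪ p ⁻¹' {f (2 * t + 2)} := fun t => rfl
  have hlast : ∀ t, p ⁻¹' {f (2 * t)} ⊆ S t := by
    intro t
    cases t with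
    | zero => exact subset_rfl
    | succ t =>
      rw [hSs]
      exact Set.subset_union_right
  have hconn : ∀ t ≤ k, (G.induce (S t)).Connected := by
    intro t
    induction t with
    | zero => intro _; rw [hS0]; exact hp _
    | succ t ih =>
      intro ht
      have hP := hPY t (by omega)
      have e1 := he (2 * t) (by omega)
      have e2 := he (2 * t + 1) (by omega)
      rw [hSs]
      have c1 : (G.induce (S t ∪ P t)).Connected :=
        connected_induce_union (ih (by omega)).preconnected hP.2.2.2.2.2.1.preconnected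
          (hlast t e1.2.1) hP.2.2.2.1 e1.1
      exact connected_induce_union c1.preconnected (hp _).preconnected
        (Or.inr hP.2.2.2.2.1) e2.2.2 e2.1
  have hPsub : ∀ t n, t < n → P t ⊆ S n := by
    intro t n
    induction n with
    | zero => intro h; omega
    | succ n ih =>
      intro h
      rw [hSs]
      rcases Nat.lt_or_ge t n with h1 | h1
      · exact (ih h1).trans (Set.subset_union_left.trans Set.subset_union_left)
      · have : t = n := by omega
        subst this
        exact Set.subset_union_right.trans Set.subset_union_left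
  -- the fibres of the connected set
  have hSfib : ∀ n ≤ k, ∀ v ∈ S n, (∃ t ≤ n, p v = f (2 * t)) ∨ ∃ t < n, v ∈ P t := by
    intro n
    induction n with
    | zero => intro _ v hv; exact Or.inl ⟨0, le_rfl, hv⟩
    | succ n ih =>
      intro hn v hv
      rw [hSs] at hv
      rcases hv with (hv | hv) | hv
      · rcases ih (by omega) v hv with ⟨t, ht, h⟩ | ⟨t, ht, h⟩
        · exact Or.inl ⟨t, by omega, h⟩
        · exact Or.inr ⟨t, by omega, h⟩
      · exact Or.inr ⟨n, by omega, hv⟩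
      · exact Or.inl ⟨n + 1, le_rfl, hv⟩
  refine ⟨S k, fun i => Y i, hconn k le_rfl, fun i => (hPY i i.2).2.2.2.2.2.2.1, ?_, ?_, ?_⟩
  · intro i j hij
    rw [Set.disjoint_left]
    intro v hv hv'
    have a1 : p v = f (2 * i + 1) := (hPY i i.2).2.1 hv
    have a2 : p v = f (2 * j + 1) := (hPY j j.2).2.1 hv'
    have a3 := hinj (2 * i + 1) (by have := i.2; omega) (2 * j + 1) (by have := j.2; omega)
      (a1.symm.trans a2)
    exact hij (Fin.ext (by omega))
  · intro i
    rw [Set.disjoint_left]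
    intro v hv hv'
    have a2 : p v = f (2 * i + 1) := (hPY i i.2).2.1 hv'
    rcases hSfib k le_rfl v hv with ⟨t, ht, h⟩ | ⟨t, ht, h⟩
    · have a3 := hinj (2 * i + 1) (by have := i.2; omega) (2 * t) (by omega) (a2.symm.trans h)
      omega
    · have a4 : p v = f (2 * t + 1) := (hPY t ht).1 h
      have a3 := hinj (2 * i + 1) (by have := i.2; omega) (2 * t + 1) (by omega)
        (a2.symm.trans a4)
      have a5 : t = i := by omega
      subst a5
      exact Set.disjoint_left.1 (hPY _ ht).2.2.1 h hv'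
  · intro i
    obtain ⟨z, hz, x, hx, hzx⟩ := (hPY i i.2).2.2.2.2.2.2.2
    exact ⟨z, hPsub i k i.2 hz, x, hx, hzx⟩

/-- many disjoint bad sets give a star -/
theorem star_of_disjoint {V : Type} [Finite V] {G : SimpleGraph V} (hG : G.Connected)
    {Bad : Set V → Prop} (k m : ℕ) (hm : (k + 1) ^ (2 * k + 1) ≤ m) (A : Fin (m + 1) → Set V)
    (hA : ∀ i, (G.induce (A i)).Connected) (hd : ∀ i j, i ≠ j → Disjoint (A i) (A j))
    (hX : ∀ (i : Fin (m + 1)) (X : Set V), A i ⊆ X → (G.induce X).Connected →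
      Bad X ∧ ∀ a ∈ X, ∀ b ∈ X, Link G Bad X a b) :
    ∃ (Z : Set V) (D : Fin k → Set V), StarB G Bad k Z D := by
  classical
  obtain ⟨p, hpA, hp⟩ := exists_part hG A hA hd
  have hsurj : Function.Surjective p := fun i => by
    obtain ⟨⟨v, hv⟩⟩ := (hp i).nonempty
    exact ⟨v, hv⟩
  have hsub : ∀ i, A i ⊆ p ⁻¹' {i} := fun i v hv => hpA i v hv
  rcases star_or_path (quot G p) (quot_connected hG hsurj) k
    (by rw [Nat.card_eq_fintype_card, Fintype.card_fin]; omega) with ⟨i, f, hf, hadj⟩ | ⟨f, hf, hadj⟩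
  · refine ⟨p ⁻¹' {i}, fun j => p ⁻¹' {f j}, hp i,
      fun j => (hX (f j) _ (hsub _) (hp _)).1, ?_, ?_, ?_⟩
    · intro a b hab
      rw [Set.disjoint_left]
      intro v hv hv'
      exact hab (hf ((show p v = f a from hv).symm.trans hv'))
    · intro a
      rw [Set.disjoint_left]
      intro v hv hv'
      exact (hadj a).1 ((show p v = i from hv).symm.trans hv')
    · intro a
      obtain ⟨-, u, v, huv, hu, hv⟩ := hadj a
      exact ⟨u, hu, v, hv, huv⟩
  · refine chain_star hp k (fun n => f ⟨min n (2 * k), by omega⟩) ?_ ?_ ?_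
    · intro a ha b hb hab
      have h1 := congrArg Fin.val (hf hab)
      simp only at h1
      omega
    · intro j hj
      have h1 := hadj ⟨j, hj⟩
      have e1 : (⟨min j (2 * k), by omega⟩ : Fin (2 * k + 1)) = (⟨j, hj⟩ : Fin (2 * k)).castSucc :=
        Fin.ext (by simp only [Fin.val_castSucc]; omega)
      have e2 : (⟨min (j + 1) (2 * k), by omega⟩ : Fin (2 * k + 1)) =
          (⟨j, hj⟩ : Fin (2 * k)).succ := Fin.ext (by simp only [Fin.val_succ]; omega)
      simp only [e1, e2]
      exact h1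
    · intro i a b ha hb
      exact (hX i _ (hsub i) (hp i)).2 a ha b hb

end Vale.Agent.P235.H502
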