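import Vale.Agent.P235.H12.Geo
import Vale.Agent.P235.H502.Chain

/-!
P235 (helper502).  The star theorem with constants: `c₁ ≤ K (r + 2)³ (C + (k + 1) log (k + 2))` for
connected graphs without a `K_r` minor and without a star of `k` disjoint bad sets.
-/

set_option autoImplicit false

namespace Vale.Agent.P235.H502

open SimpleGraph hiding Free
open Vale.Agent.P235 Vale.Agent.P235.H134 Vale.Agent.P235.H606 Vale.Agent.P235.H12

/-- badness passes to connected supersets -/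
theorem bad_superset {V : Type} [Finite V] {G : SimpleGraph V} {C : ℝ} {A X : Set V}
    (hA : Bad G C A) (hAX : A ⊆ X) (hX : (G.induce X).Connected) : Bad G C X :=
  ⟨hX, fun h => hA.2 (DistortionLE.emb (fun a : A => (⟨a.1, hAX a.2⟩ : X))
    (fun _ _ hab => Subtype.ext (congrArg (fun x : X => x.1) hab)) (fun _ _ hab => hab) hX hA.1 h)⟩

/-- many disjoint bad sets give a star of bad sets, any finite connected graph -/
theorem star_of_packing {V : Type} [Finite V] {G : SimpleGraph V} (hG : G.Connected) {C : ℝ}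
    (hC : 1 ≤ C) (k m : ℕ) (hm : (k + 1) ^ (2 * k + 1) ≤ m)
    (h : Packing G (1 + 2 * (96 * C + 112)) m) :
    ∃ (Z : Set V) (D : Fin k → Set V), Star G C k Z D := by
  obtain ⟨A, hA, hd⟩ := h
  obtain ⟨Z, D, h1, h2, h3, h4, h5⟩ := star_of_disjoint hG (Bad := Bad G C) k m hm A
    (fun i => (hA i).1) hd fun i X hX hc => by
      have hb : Bad G (1 + 2 * (96 * C + 112)) X := bad_superset (hA i) hX hc
      exact ⟨bad_mono (by linarith) hb, fun a ha b hb' => geo (by linarith) ha hb' hb⟩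
  exact ⟨Z, D, h1, h2, h3, h4, h5⟩

theorem log_pow_le (k : ℕ) : Real.log (((k + 1) ^ (2 * k + 1) : ℕ) + 2 : ℝ) ≤
    3 * ((k : ℝ) + 1) * Real.log ((k : ℝ) + 2) := by
  have h1 : (((k + 1) ^ (2 * k + 1) : ℕ) + 2 : ℝ) ≤ ((k : ℝ) + 2) ^ (3 * (k + 1)) := by
    have h2 : (k + 1) ^ (2 * k + 1) + 2 ≤ (k + 2) ^ (3 * (k + 1)) := by
      have h3 : (k + 1) ^ (2 * k + 1) ≤ (k + 2) ^ (2 * k + 1) := Nat.pow_le_pow_left (by omega) _
      have h4 : (k + 2) ^ (3 * (k + 1)) = (k + 2) ^ (2 * k + 1) * (k + 2) ^ (k + 2) := by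
        rw [← pow_add]; congr 1; ring
      have h5 : 2 ^ 2 ≤ (k + 2) ^ (k + 2) :=
        (Nat.pow_le_pow_left (by omega) 2).trans (Nat.pow_le_pow_right (by omega) (by omega))
      have h6 : 1 ≤ (k + 2) ^ (2 * k + 1) := Nat.one_le_pow _ _ (by omega)
      rw [h4]
      nlinarith
    calc (((k + 1) ^ (2 * k + 1) : ℕ) + 2 : ℝ) = (((k + 1) ^ (2 * k + 1) + 2 : ℕ) : ℝ) := by
          push_cast; ring
      _ ≤ (((k + 2) ^ (3 * (k + 1)) : ℕ) : ℝ) := by exact_mod_cast h2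
      _ = ((k : ℝ) + 2) ^ (3 * (k + 1)) := by push_cast; ring
  have h7 : (0 : ℝ) < (((k + 1) ^ (2 * k + 1) : ℕ) + 2 : ℝ) := by positivity
  refine (Real.log_le_log h7 h1).trans (le_of_eq ?_)
  rw [Real.log_pow]
  push_cast
  ring

/-- (S) the star theorem with constants -/
theorem starS (hP : PackStmt) :
    ∃ K : ℝ, 1 ≤ K ∧ ∀ (r k : ℕ) (C : ℝ) (V : Type) [Finite V] (G : SimpleGraph V), 1 ≤ C →
      G.Connected → Kr.NoK r G → (¬ ∃ (Z : Set V) (D : Fin k → Set V), Star G C k Z D) →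
      DistortionLE G (K * ((r : ℝ) + 2) ^ 3 * (C + ((k : ℝ) + 1) * Real.log ((k : ℝ) + 2))) ∧
      DistortionLE G
        (K * ((r : ℝ) + 2) ^ 6 * (C + √(((k : ℝ) + 1) * Real.log ((k : ℝ) + 2)))) := by
  obtain ⟨K, hK, h⟩ := hP
  refine ⟨K * 500, by linarith, fun r k C V _ G hC hG hr hno => ?_⟩
  obtain ⟨h1, h2⟩ := h r ((k + 1) ^ (2 * k + 1)) (1 + 2 * (96 * C + 112)) V G (by linarith) hG hr
    fun hp => hno (star_of_packing hG hC k _ le_rfl hp)
  have hl := log_pow_le k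
  have hk0 : (0 : ℝ) ≤ k := Nat.cast_nonneg k
  have hlog : 0 ≤ Real.log ((k : ℝ) + 2) := Real.log_nonneg (by linarith)
  have hq : (0 : ℝ) ≤ ((r : ℝ) + 2) ^ 3 := by positivity
  have hq6 : (0 : ℝ) ≤ ((r : ℝ) + 2) ^ 6 := by positivity
  have hx : 0 ≤ ((k : ℝ) + 1) * Real.log ((k : ℝ) + 2) := by positivity
  refine ⟨h1.mono ?_, h2.mono ?_⟩
  · have e1 : 1 + 2 * (96 * C + 112) + Real.log (((k + 1) ^ (2 * k + 1) : ℕ) + 2 : ℝ) ≤
        500 * (C + ((k : ℝ) + 1) * Real.log ((k : ℝ) + 2)) := by nlinarith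
    calc K * ((r : ℝ) + 2) ^ 3 *
          (1 + 2 * (96 * C + 112) + Real.log (((k + 1) ^ (2 * k + 1) : ℕ) + 2 : ℝ))
        ≤ K * ((r : ℝ) + 2) ^ 3 * (500 * (C + ((k : ℝ) + 1) * Real.log ((k : ℝ) + 2))) :=
          mul_le_mul_of_nonneg_left e1 (by positivity)
      _ = _ := by ring
  · have e0 : √(Real.log (((k + 1) ^ (2 * k + 1) : ℕ) + 2 : ℝ)) ≤
        2 * √(((k : ℝ) + 1) * Real.log ((k : ℝ) + 2)) := by
      have e4 : √(4 * (((k : ℝ) + 1) * Real.log ((k : ℝ) + 2))) =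
          2 * √(((k : ℝ) + 1) * Real.log ((k : ℝ) + 2)) := by
        rw [Real.sqrt_mul (by norm_num : (0 : ℝ) ≤ 4)]
        congr 1
        rw [show (4 : ℝ) = 2 ^ 2 by norm_num]
        exact Real.sqrt_sq (by norm_num)
      rw [← e4]
      exact Real.sqrt_le_sqrt (by linarith)
    have hs : 0 ≤ √(((k : ℝ) + 1) * Real.log ((k : ℝ) + 2)) := Real.sqrt_nonneg _
    have e1 : 1 + 2 * (96 * C + 112) + √(Real.log (((k + 1) ^ (2 * k + 1) : ℕ) + 2 : ℝ)) ≤
        500 * (C + √(((k : ℝ) + 1) * Real.log ((k : ℝ) + 2))) := by nlinarith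
    calc K * ((r : ℝ) + 2) ^ 6 *
          (1 + 2 * (96 * C + 112) + √(Real.log (((k + 1) ^ (2 * k + 1) : ℕ) + 2 : ℝ)))
        ≤ K * ((r : ℝ) + 2) ^ 6 * (500 * (C + √(((k : ℝ) + 1) * Real.log ((k : ℝ) + 2)))) :=
          mul_le_mul_of_nonneg_left e1 (by positivity)
      _ = _ := by ring

end Vale.Agent.P235.H502
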